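import Mathlib

/-!
# P022-L3, chapter F, row WORD: universal trace polynomials in three generators (helper266)
-/

open MvPolynomial

namespace Vale.Agent.P022.H266.L3

/-- Two-dimensional pseudorepresentations: trace `t` and determinant `d`. -/
structure Ps {R H : Type*} [CommRing R] [Group H] (t : H → R) (d : H →* Rˣ) : Prop where
  one : t 1 = 2
  comm : ∀ g h, t (g * h) = t (h * g)
  mul : ∀ g h, t (g * h) + d h * t (g * h⁻¹) = t g * t h

/-- The variables: the traces of the eight ordered products, the determinants and their inverses. -/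
abbrev Va := Fin 8 ⊕ (Fin 3 × Bool)

/-- The eight ordered products of three elements. -/
def gJ {H : Type*} [Group H] (g : Fin 3 → H) : Fin 8 → H :=
  ![1, g 0, g 1, g 2, g 0 * g 1, g 0 * g 2, g 1 * g 2, g 0 * (g 1 * g 2)]

/-- The values of the variables. -/
def val {R H : Type*} [CommRing R] [Group H] (t : H → R) (d : H →* Rˣ) (g : Fin 3 → H) : Va → R
  | Sum.inl J => t (gJ g J)
  | Sum.inr (i, true) => d (g i)
  | Sum.inr (i, false) => ((d (g i))⁻¹ : Rˣ)

section id

variable {R H : Type*} [CommRing R] [Group H] {t : H → R} {d : H →* Rˣ}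

theorem Ps.Q0 (P : Ps t d) (h x : H) : t (h * (x * x)) = t x * t (h * x) - d x * t h := by
  have h1 := P.mul (h * x) x
  rw [mul_inv_cancel_right, mul_assoc] at h1
  linear_combination h1

theorem Ps.inv0 (P : Ps t d) (h x : H) : d x * t (h * x⁻¹) = t x * t h - t (h * x) := by
  linear_combination P.mul h x

theorem Ps.S0 (P : Ps t d) (h x y : H) : t (h * (x * y)) + t (h * (y * x)) =
    t x * t (h * y) + t y * t (h * x) + (t (x * y) - t x * t y) * t h := by
  have h1 := P.mul (h * x) y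
  have h2 := P.mul (h * y) x
  have h3 := P.mul h (y * x⁻¹)
  have h4 := P.mul y x
  rw [mul_inv_rev, inv_inv, map_mul, map_inv] at h3
  have hd : (d x : R) * ((d x)⁻¹ : Rˣ) = 1 := by simp
  push_cast at h3
  rw [← mul_assoc h x y⁻¹, ← mul_assoc h y x⁻¹] at h3
  rw [P.comm y x] at h4
  simp only [mul_assoc] at h1 h2 h3 h4 ⊢
  linear_combination h1 + h2 - (d x : R) * h3 + (d y : R) * t (h * (x * y⁻¹)) * hd - t h * h4

/-- `x x = t(x) x - d(x)` under the trace. -/
theorem Ps.Q (P : Ps t d) (h x y : H) :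
    t (h * (x * (x * y))) = t x * t (h * (x * y)) - d x * t (h * y) := by
  have h1 := P.Q0 (y * h) x
  have e1 : t (h * (x * (x * y))) = t (y * h * (x * x)) := by
    rw [P.comm (y * h) (x * x)]
    rw [show x * x * (y * h) = (x * (x * y)) * h by group, P.comm]
  have e2 : t (h * (x * y)) = t (y * h * x) := by
    rw [P.comm (y * h) x, show x * (y * h) = (x * y) * h by group, P.comm]
  rw [e1, e2, P.comm h y]
  exact h1

/-- `x y + y x = t(x) y + t(y) x + t(xy) - t(x) t(y)` under the trace. -/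
theorem Ps.S (P : Ps t d) (h x y z : H) :
    t (h * (x * (y * z))) = - t (h * (y * (x * z))) +
    t x * t (h * (y * z)) + t y * t (h * (x * z)) + (t (x * y) - t x * t y) * t (h * z) := by
  have h1 := P.S0 (z * h) x y
  have e1 : t (h * (x * (y * z))) = t (z * h * (x * y)) := by
    rw [P.comm (z * h) (x * y), show x * y * (z * h) = (x * (y * z)) * h by group, P.comm]
  have e2 : t (h * (y * (x * z))) = t (z * h * (y * x)) := by
    rw [P.comm (z * h) (y * x), show y * x * (z * h) = (y * (x * z)) * h by group, P.comm]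
  have e3 : t (h * (x * z)) = t (z * h * x) := by
    rw [P.comm (z * h) x, show x * (z * h) = (x * z) * h by group, P.comm]
  have e4 : t (h * (y * z)) = t (z * h * y) := by
    rw [P.comm (z * h) y, show y * (z * h) = (y * z) * h by group, P.comm]
  rw [e1, e2, e3, e4, P.comm h z]
  linear_combination h1

theorem Ps.inv (P : Ps t d) (h x z : H) :
    t (h * (x⁻¹ * z)) = ((d x)⁻¹ : Rˣ) * (t x * t (h * z) - t (h * (x * z))) := by
  have h1 := P.inv0 (z * h) x
  have e1 : t (h * (x⁻¹ * z)) = t (z * h * x⁻¹) := by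
    rw [P.comm (z * h) x⁻¹, show x⁻¹ * (z * h) = (x⁻¹ * z) * h by group, P.comm]
  have e2 : t (h * (x * z)) = t (z * h * x) := by
    rw [P.comm (z * h) x, show x * (z * h) = (x * z) * h by group, P.comm]
  have hd : (d x : R) * ((d x)⁻¹ : Rˣ) = 1 := by simp
  rw [e1, e2, P.comm h z]
  linear_combination (((d x)⁻¹ : Rˣ) : R) * h1 - t (z * h * x⁻¹) * hd

end id

/-! ## the two sources of pseudorepresentations -/

/-- Operators: `ρ g + δ g * ρ g⁻¹` central. -/
theorem Ps.of_op {A G : Type*} [Ring A] [Group G] (ρ : G →* A) (δ : G →* (Subring.center A)ˣ)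
    (t : G → Subring.center A)
    (h : ∀ g, (t g : A) = ρ g + ((δ g : Subring.center A) : A) * ρ g⁻¹) : Ps t δ := by
  have hc : ∀ (z : Subring.center A) (a : A), (z : A) * a = a * z := fun z a =>
    (Subring.mem_center_iff.1 z.2 a).symm
  have h1 : ∀ g, ρ g * ρ g⁻¹ = 1 := fun g => by rw [← map_mul, mul_inv_cancel, map_one]
  have h2 : ∀ g, ρ g⁻¹ * ρ g = 1 := fun g => by rw [← map_mul, inv_mul_cancel, map_one]
  have hd : ∀ g, ((δ g : Subring.center A) : A) * (((δ g)⁻¹ : (Subring.center A)ˣ) :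
      Subring.center A) = 1 := fun g => by
    rw [← Subring.coe_mul, ← Units.val_mul, mul_inv_cancel]
    rfl
  refine ⟨?_, ?_, ?_⟩
  · apply Subtype.ext
    rw [h, inv_one, map_one ρ, map_one δ, Units.val_one, Subring.coe_one, one_mul,
      one_add_one_eq_two]
    rfl
  · intro g k
    apply Subtype.ext
    have e : (t (g * k) : A) = ρ k * (t (g * k) : A) * ρ k⁻¹ := by
      rw [← hc, mul_assoc, h1, mul_one]
    rw [e, h, h, map_mul, map_mul, mul_inv_rev, mul_inv_rev, map_mul, map_mul, map_mul, map_mul,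
      mul_comm (δ g) (δ k), mul_add, add_mul]
    congr 1
    · rw [mul_assoc, mul_assoc, h1, mul_one]
    · rw [← mul_assoc (ρ k), ← hc _ (ρ k), mul_assoc, mul_assoc, mul_assoc, ← mul_assoc (ρ k),
        h1, one_mul]
  · intro g k
    apply Subtype.ext
    rw [Subring.coe_add, Subring.coe_mul, Subring.coe_mul, h (g * k), h (g * k⁻¹)]
    have e : (t g : A) * (t k : A) =
        (ρ g * (t k : A)) + ((δ g : Subring.center A) : A) * ((t k : A) * ρ g⁻¹) := by
      rw [h g, add_mul, mul_assoc, hc (t k)]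
    rw [e, h k]
    simp only [map_mul, map_inv, mul_inv_rev, inv_inv, Units.val_mul, Subring.coe_mul]
    have e1 := hd k
    have e2 := hc (δ k) (ρ g)
    have e3 := hc (δ g) (((δ k : Subring.center A) : A))
    have e4 := hc (δ k) ((δ g : Subring.center A) : A)
    calc ρ g * ρ k + ((δ g : Subring.center A) : A) * ((δ k : Subring.center A) : A) *
          (ρ k⁻¹ * ρ g⁻¹) + ((δ k : Subring.center A) : A) * (ρ g * ρ k⁻¹ +
          ((δ g : Subring.center A) : A) * (((δ k)⁻¹ : (Subring.center A)ˣ) : Subring.center A) *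
          (ρ k * ρ g⁻¹))
        = ρ g * ρ k + ((δ g : Subring.center A) : A) * ((δ k : Subring.center A) : A) *
          (ρ k⁻¹ * ρ g⁻¹) + (((δ k : Subring.center A) : A) * ρ g * ρ k⁻¹ +
          (((δ k : Subring.center A) : A) * ((δ g : Subring.center A) : A)) *
          (((δ k)⁻¹ : (Subring.center A)ˣ) : Subring.center A) *
          (ρ k * ρ g⁻¹)) := by
            simp only [mul_add, mul_assoc]
      _ = ρ g * ρ k + ((δ g : Subring.center A) : A) * ((δ k : Subring.center A) : A) *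
          (ρ k⁻¹ * ρ g⁻¹) + (ρ g * ((δ k : Subring.center A) : A) * ρ k⁻¹ +
          ((δ g : Subring.center A) : A) * (ρ k * ρ g⁻¹)) := by
            rw [e2, e4, mul_assoc ((δ g : Subring.center A) : A) ((δ k : Subring.center A) : A)
              (((δ k)⁻¹ : (Subring.center A)ˣ) : Subring.center A), e1, mul_one]
      _ = _ := by
            simp only [mul_add, add_mul, mul_assoc]
            abel

/-- Two-dimensional representations: trace and determinant. -/
theorem Ps.of_gl {E G : Type*} [Field E] [Group G] (r : G →* GL (Fin 2) E) :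
    Ps (fun g => (r g : Matrix (Fin 2) (Fin 2) E).trace)
      (Matrix.GeneralLinearGroup.det.comp r) := by
  refine ⟨?_, ?_, ?_⟩
  · simp
  · intro g h
    simp only [map_mul, Units.val_mul]
    rw [Matrix.trace_mul_comm]
  · intro g h
    have h1 : (r h : Matrix (Fin 2) (Fin 2) E).det • (r h⁻¹ : Matrix (Fin 2) (Fin 2) E) =
        (r h : Matrix (Fin 2) (Fin 2) E).adjugate := by
      have e1 : (r h : Matrix (Fin 2) (Fin 2) E) * (r h⁻¹ : Matrix (Fin 2) (Fin 2) E) = 1 := by
        rw [← Units.val_mul, ← map_mul, mul_inv_cancel, map_one, Units.val_one]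
      calc (r h : Matrix (Fin 2) (Fin 2) E).det • (r h⁻¹ : Matrix (Fin 2) (Fin 2) E)
          = ((r h : Matrix (Fin 2) (Fin 2) E).det • (1 : Matrix (Fin 2) (Fin 2) E)) *
            (r h⁻¹ : Matrix (Fin 2) (Fin 2) E) := by rw [Matrix.smul_mul, one_mul]
        _ = _ := by rw [← Matrix.adjugate_mul, mul_assoc, e1, mul_one]
    have h2 : ((Matrix.GeneralLinearGroup.det.comp r) h : E) *
        (r (g * h⁻¹) : Matrix (Fin 2) (Fin 2) E).trace =
        ((r g : Matrix (Fin 2) (Fin 2) E) *
          (r h : Matrix (Fin 2) (Fin 2) E).adjugate).trace := by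
      rw [← h1, Matrix.mul_smul, Matrix.trace_smul, map_mul, Units.val_mul]
      rfl
    show _ + ((Matrix.GeneralLinearGroup.det.comp r) h : E) *
        (r (g * h⁻¹) : Matrix (Fin 2) (Fin 2) E).trace = _
    rw [h2, map_mul, Units.val_mul, Matrix.adjugate_fin_two]
    simp only [Matrix.trace_fin_two, Matrix.mul_apply, Fin.sum_univ_two, Matrix.of_apply,
      Matrix.cons_val', Matrix.cons_val_zero, Matrix.cons_val_one, Matrix.cons_val_fin_one]
    ring

/-- `w` is a universal combination of the ordered products, under the trace. -/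
def Good (w : FreeGroup (Fin 3)) : Prop :=
  ∃ c : Fin 8 → MvPolynomial Va ℤ, ∀ (R H : Type) [CommRing R] [Group H] (t : H → R) (d : H →* Rˣ),
    Ps t d → ∀ (g : Fin 3 → H) (h : H),
      t (h * FreeGroup.lift g w) = ∑ J, aeval (val t d g) (c J) * t (h * gJ g J)

theorem good_one : Good 1 := by
  refine ⟨![1, 0, 0, 0, 0, 0, 0, 0], ?_⟩
  intro R H _ _ t d P g h
  simp [Fin.sum_univ_eight, gJ]

/-- the base identities -/
theorem base (i : Fin 3) (J : Fin 8) : ∃ m : Fin 8 → MvPolynomial Va ℤ,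
    ∀ (R H : Type) [CommRing R] [Group H] (t : H → R) (d : H →* Rˣ),
    Ps t d → ∀ (g : Fin 3 → H) (h : H),
      t (h * (g i * gJ g J)) = ∑ K, aeval (val t d g) (m K) * t (h * gJ g K) := by
  let T1 : MvPolynomial Va ℤ := X (Sum.inl 1)
  let T2 : MvPolynomial Va ℤ := X (Sum.inl 2)
  let T3 : MvPolynomial Va ℤ := X (Sum.inl 3)
  let T12 : MvPolynomial Va ℤ := X (Sum.inl 4)
  let T13 : MvPolynomial Va ℤ := X (Sum.inl 5)
  let T23 : MvPolynomial Va ℤ := X (Sum.inl 6)
  let D1 : MvPolynomial Va ℤ := X (Sum.inr (0, true))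
  let D2 : MvPolynomial Va ℤ := X (Sum.inr (1, true))
  let D3 : MvPolynomial Va ℤ := X (Sum.inr (2, true))
  fin_cases i
  · fin_cases J
    · refine ⟨![0, 1, 0, 0, 0, 0, 0, 0], ?_⟩
      intro R H _ _ t d P g h
      simp [Fin.sum_univ_eight, gJ]
    · refine ⟨![-D1, T1, 0, 0, 0, 0, 0, 0], ?_⟩
      intro R H _ _ t d P g h
      have h1 := P.Q0 h (g 0)
      simp [Fin.sum_univ_eight, gJ, val, T1, D1]
      linear_combination h1
    · refine ⟨![0, 0, 0, 0, 1, 0, 0, 0], ?_⟩
      intro R H _ _ t d P g h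
      simp [Fin.sum_univ_eight, gJ]
    · refine ⟨![0, 0, 0, 0, 0, 1, 0, 0], ?_⟩
      intro R H _ _ t d P g h
      simp [Fin.sum_univ_eight, gJ]
    · refine ⟨![0, 0, -D1, 0, T1, 0, 0, 0], ?_⟩
      intro R H _ _ t d P g h
      have h1 := P.Q h (g 0) (g 1)
      simp [Fin.sum_univ_eight, gJ, val, T1, D1]
      linear_combination h1
    · refine ⟨![0, 0, 0, -D1, 0, T1, 0, 0], ?_⟩
      intro R H _ _ t d P g h
      have h1 := P.Q h (g 0) (g 2)
      simp [Fin.sum_univ_eight, gJ, val, T1, D1]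
      linear_combination h1
    · refine ⟨![0, 0, 0, 0, 0, 0, 0, 1], ?_⟩
      intro R H _ _ t d P g h
      simp [Fin.sum_univ_eight, gJ]
    · refine ⟨![0, 0, 0, 0, 0, 0, -D1, T1], ?_⟩
      intro R H _ _ t d P g h
      have h1 := P.Q h (g 0) (g 1 * g 2)
      simp [Fin.sum_univ_eight, gJ, val, T1, D1]
      linear_combination h1
  · fin_cases J
    · refine ⟨![0, 0, 1, 0, 0, 0, 0, 0], ?_⟩
      intro R H _ _ t d P g h
      simp [Fin.sum_univ_eight, gJ]
    · refine ⟨![T12 - T1 * T2, T2, T1, 0, -1, 0, 0, 0], ?_⟩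
      intro R H _ _ t d P g h
      have h1 := P.S0 h (g 0) (g 1)
      simp [Fin.sum_univ_eight, gJ, val, T1, T2, T12]
      linear_combination h1
    · refine ⟨![-D2, 0, T2, 0, 0, 0, 0, 0], ?_⟩
      intro R H _ _ t d P g h
      have h1 := P.Q0 h (g 1)
      simp [Fin.sum_univ_eight, gJ, val, T2, D2]
      linear_combination h1
    · refine ⟨![0, 0, 0, 0, 0, 0, 1, 0], ?_⟩
      intro R H _ _ t d P g h
      simp [Fin.sum_univ_eight, gJ]
    · refine ⟨![-(T1 * D2), D2, T12, 0, 0, 0, 0, 0], ?_⟩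
      intro R H _ _ t d P g h
      have h1 := P.S h (g 1) (g 0) (g 1)
      have h2 := P.Q0 (h * g 0) (g 1)
      have h3 := P.Q0 h (g 1)
      rw [P.comm (g 1) (g 0)] at h1
      simp only [mul_assoc] at h1 h2 h3
      simp [Fin.sum_univ_eight, gJ, val, T1, D2, T12]
      linear_combination h1 - h2 + t (g 0) * h3
    · refine ⟨![0, 0, 0, T12 - T1 * T2, 0, T2, T1, -1], ?_⟩
      intro R H _ _ t d P g h
      have h1 := P.S h (g 1) (g 0) (g 2)
      rw [P.comm (g 1) (g 0)] at h1
      simp [Fin.sum_univ_eight, gJ, val, T1, T2, T12]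
      linear_combination h1
    · refine ⟨![0, 0, 0, -D2, 0, 0, T2, 0], ?_⟩
      intro R H _ _ t d P g h
      have h1 := P.Q h (g 1) (g 2)
      simp [Fin.sum_univ_eight, gJ, val, T2, D2]
      linear_combination h1
    · refine ⟨![0, 0, 0, -(T1 * D2), 0, D2, T12, 0], ?_⟩
      intro R H _ _ t d P g h
      have h1 := P.S h (g 1) (g 0) (g 1 * g 2)
      have h2 := P.Q (h * g 0) (g 1) (g 2)
      have h3 := P.Q h (g 1) (g 2)
      rw [P.comm (g 1) (g 0)] at h1
      simp only [mul_assoc] at h1 h2 h3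
      simp [Fin.sum_univ_eight, gJ, val, T1, D2, T12]
      linear_combination h1 - h2 + t (g 0) * h3
  · fin_cases J
    · refine ⟨![0, 0, 0, 1, 0, 0, 0, 0], ?_⟩
      intro R H _ _ t d P g h
      simp [Fin.sum_univ_eight, gJ]
    · refine ⟨![T13 - T1 * T3, T3, 0, T1, 0, -1, 0, 0], ?_⟩
      intro R H _ _ t d P g h
      have h1 := P.S0 h (g 0) (g 2)
      simp [Fin.sum_univ_eight, gJ, val, T1, T3, T13]
      linear_combination h1
    · refine ⟨![T23 - T2 * T3, 0, T3, T2, 0, 0, -1, 0], ?_⟩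
      intro R H _ _ t d P g h
      have h1 := P.S0 h (g 1) (g 2)
      simp [Fin.sum_univ_eight, gJ, val, T2, T3, T23]
      linear_combination h1
    · refine ⟨![-D3, 0, 0, T3, 0, 0, 0, 0], ?_⟩
      intro R H _ _ t d P g h
      have h1 := P.Q0 h (g 2)
      simp [Fin.sum_univ_eight, gJ, val, T3, D3]
      linear_combination h1
    · refine ⟨![T1 * (T23 - T2 * T3), -(T23 - T2 * T3), T13, T1 * T2, 0, -T2, -T1, 1], ?_⟩
      intro R H _ _ t d P g h
      have h1 := P.S h (g 2) (g 0) (g 1)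
      have h2 := P.S0 (h * g 0) (g 1) (g 2)
      have h3 := P.S0 h (g 1) (g 2)
      rw [P.comm (g 2) (g 0)] at h1
      simp only [mul_assoc] at h1 h2 h3
      simp [Fin.sum_univ_eight, gJ, val, T1, T2, T3, T13, T23]
      linear_combination h1 - h2 + t (g 0) * h3
    · refine ⟨![-(T1 * D3), D3, 0, T13, 0, 0, 0, 0], ?_⟩
      intro R H _ _ t d P g h
      have h1 := P.S h (g 2) (g 0) (g 2)
      have h2 := P.Q0 (h * g 0) (g 2)
      have h3 := P.Q0 h (g 2)
      rw [P.comm (g 2) (g 0)] at h1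
      simp only [mul_assoc] at h1 h2 h3
      simp [Fin.sum_univ_eight, gJ, val, T1, D3, T13]
      linear_combination h1 - h2 + t (g 0) * h3
    · refine ⟨![-(T2 * D3), 0, D3, T23, 0, 0, 0, 0], ?_⟩
      intro R H _ _ t d P g h
      have h1 := P.S h (g 2) (g 1) (g 2)
      have h2 := P.Q0 (h * g 1) (g 2)
      have h3 := P.Q0 h (g 2)
      rw [P.comm (g 2) (g 1)] at h1
      simp only [mul_assoc] at h1 h2 h3
      simp [Fin.sum_univ_eight, gJ, val, T2, D3, T23]
      linear_combination h1 - h2 + t (g 1) * h3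
    · refine ⟨![-(T1 * T2 * D3), T2 * D3, T1 * D3, T1 * T23, -D3, -T23, T13 - T1 * T3, T3], ?_⟩
      intro R H _ _ t d P g h
      have h1 := P.S h (g 2) (g 0) (g 1 * g 2)
      have h2 := P.S (h * g 0) (g 2) (g 1) (g 2)
      have h3 := P.Q0 (h * g 0 * g 1) (g 2)
      have h4 := P.Q0 (h * g 0) (g 2)
      have h5 := P.S h (g 2) (g 1) (g 2)
      have h6 := P.Q0 (h * g 1) (g 2)
      have h7 := P.Q0 h (g 2)
      rw [P.comm (g 2) (g 0)] at h1
      rw [P.comm (g 2) (g 1)] at h2 h5
      simp only [mul_assoc] at h1 h2 h3 h4 h5 h6 h7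
      simp [Fin.sum_univ_eight, gJ, val, T1, T2, T3, T13, T23, D3]
      linear_combination h1 - h2 + h3 - t (g 1) * h4 + t (g 0) * (h5 - h6 + t (g 1) * h7)

theorem step_of {v : FreeGroup (Fin 3)} (hv : Good v) (i : Fin 3) : Good (FreeGroup.of i * v) := by
  obtain ⟨c, hc⟩ := hv
  choose m hm using base
  refine ⟨fun K => ∑ J, c J * m i J K, ?_⟩
  intro R H _ _ t d P g h
  have h1 := hc R H t d P g (h * g i)
  rw [map_mul, FreeGroup.lift_apply_of, ← mul_assoc, h1]
  simp only [mul_assoc, hm i _ R H t d P g h, Finset.mul_sum, map_sum, map_mul, Finset.sum_mul]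
  rw [Finset.sum_comm]

theorem step_inv {v : FreeGroup (Fin 3)} (hv : Good v) (i : Fin 3) :
    Good ((FreeGroup.of i)⁻¹ * v) := by
  obtain ⟨c', hc'⟩ := step_of hv i
  obtain ⟨c, hc⟩ := hv
  refine ⟨fun K => X (Sum.inr (i, false)) *
    ((if i = 0 then X (Sum.inl 1) else if i = 1 then X (Sum.inl 2) else X (Sum.inl 3)) * c K
      - c' K), ?_⟩
  intro R H _ _ t d P g h
  have h1 := hc R H t d P g h
  have h2 := hc' R H t d P g h
  rw [map_mul, map_inv, FreeGroup.lift_apply_of, P.inv]
  rw [map_mul, FreeGroup.lift_apply_of] at h2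
  rw [h1, h2]
  have hT : aeval (val t d g) (if i = 0 then X (Sum.inl 1) else if i = 1 then X (Sum.inl 2)
      else X (Sum.inl 3) : MvPolynomial Va ℤ) = t (g i) := by
    fin_cases i <;> simp [val, gJ]
  have hE : aeval (val t d g) (X (Sum.inr (i, false)) : MvPolynomial Va ℤ) =
      ((d (g i))⁻¹ : Rˣ) := by
    simp [val]
  simp only [map_mul, map_sub, hT, hE, Finset.mul_sum, ← Finset.sum_sub_distrib]
  refine Finset.sum_congr rfl fun K _ => ?_
  ring

theorem good (w : FreeGroup (Fin 3)) : Good w := by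
  have key : ∀ w : FreeGroup (Fin 3), ∀ v, Good v → Good (w * v) := by
    intro w
    refine FreeGroup.induction_on w ?_ ?_ ?_ ?_
    · intro v hv
      rwa [one_mul]
    · intro i v hv
      exact step_of hv i
    · intro i _ v hv
      exact step_inv hv i
    · intro x y hx hy v hv
      rw [mul_assoc]
      exact hx _ (hy _ hv)
  simpa using key w 1 good_one

/-- **Universal trace polynomials**: the trace of a word in three elements is a universal integral
polynomial in the traces of the eight ordered products, the determinants and their inverses. -/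
theorem word (w : FreeGroup (Fin 3)) : ∃ Φ : MvPolynomial Va ℤ,
    ∀ (R H : Type) [CommRing R] [Group H] (t : H → R) (d : H →* Rˣ),
    Ps t d → ∀ g : Fin 3 → H, t (FreeGroup.lift g w) = aeval (val t d g) Φ := by
  obtain ⟨c, hc⟩ := good w
  refine ⟨∑ J, c J * X (Sum.inl J), ?_⟩
  intro R H _ _ t d P g
  have h1 := hc R H t d P g 1
  rw [one_mul] at h1
  rw [h1, map_sum]
  refine Finset.sum_congr rfl fun J _ => ?_
  rw [map_mul, aeval_X, one_mul]
  rfl

/-- The determinant of a word. -/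
theorem word_det (w : FreeGroup (Fin 3)) : ∃ Φ : MvPolynomial Va ℤ,
    ∀ (R H : Type) [CommRing R] [Group H] (t : H → R) (d : H →* Rˣ) (g : Fin 3 → H),
    (d (FreeGroup.lift g w) : R) = aeval (val t d g) Φ ∧
    (((d (FreeGroup.lift g w))⁻¹ : Rˣ) : R) = aeval (val t d g) (rename (Sum.map id
      (Prod.map id not)) Φ) := by
  refine FreeGroup.induction_on w ?_ ?_ ?_ ?_
  · refine ⟨1, fun R H _ _ t d g => ?_⟩
    simp
  · intro i
    refine ⟨X (Sum.inr (i, true)), fun R H _ _ t d g => ?_⟩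
    simp [val]
  · intro i _
    refine ⟨X (Sum.inr (i, false)), fun R H _ _ t d g => ?_⟩
    simp [val]
  · rintro x y ⟨Φ, hΦ⟩ ⟨Ψ, hΨ⟩
    refine ⟨Φ * Ψ, fun R H _ _ t d g => ?_⟩
    simp only [map_mul, Units.val_mul, mul_inv]
    rw [(hΦ R H t d g).1, (hΦ R H t d g).2, (hΨ R H t d g).1, (hΨ R H t d g).2]
    exact ⟨rfl, rfl⟩

end Vale.Agent.P022.H266.L3
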